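import Vale.Agent.P284.H730.CY.Spec
import Vale.Agent.P272.K.LIN.C2

/-!
# P284, theorem CY (helper730): completeness of the Hölder spaces
-/

open scoped Manifold ContDiff Topology NNReal ComplexOrder
open Filter Set Metric MeasureTheory

set_option maxSynthPendingDepth 3
set_option linter.unusedSectionVars false

noncomputable section

namespace Vale.Agent.P284.H730.CY

open Vale.Agent.P272.K Vale.Agent.P272.K.LIN Vale.Agent.P272.K.N Vale.Agent.P284.H248
  Vale.Agent.P284.H894 Vale.Agent.P284.H894.G Vale.Agent.P284.H894.V Vale.Agent.P284.H409.K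

variable {n : ℕ} {Γ : Type} [Group Γ]

lemma wt_same {C : Coc n Γ} {α : ℝ} {γ : Γ} {a : C.I} {z z' : Cm n} (h : z ∈ C.V a)
    (h' : z' ∈ C.V a) : (wt C α ⟨γ, a, z, h⟩ ⟨γ, a, z', h'⟩ : ℝ) = ‖z - z'‖ ^ α := by
  simp [wt, NNReal.coe_rpow]

lemma wt_le {C : Coc n Γ} {α : ℝ} (p q : Pt C) (h : ¬ (p.γ = q.γ ∧ p.a = q.a)) :
    (wt C α p q : ℝ) = 1 := by
  simp [wt, h]

/-- a `w`-Hölder function from bounds on every ball -/
lemma hol_of {C : Coc n Γ} {α : ℝ} {V : Type} [NormedAddCommGroup V] (f : Pt C → V) {A B : ℝ}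
    (h0 : ∀ p, ‖f p‖ ≤ A)
    (h1 : ∀ γ a z z' (h : z ∈ C.V a) (h' : z' ∈ C.V a),
      ‖f ⟨γ, a, z, h⟩ - f ⟨γ, a, z', h'⟩‖ ≤ B * ‖z - z'‖ ^ α) :
    ∀ p q, ‖f p - f q‖ ≤ (max B (2 * A)) * wt C α p q := by
  rintro ⟨γ, a, z, h⟩ ⟨γ', a', z', h'⟩
  by_cases hh : γ = γ' ∧ a = a'
  · obtain ⟨rfl, rfl⟩ := hh
    rw [wt_same]
    refine (h1 γ a z z' h h').trans ?_
    gcongr
    exact le_max_left _ _
  · rw [wt_le _ _ hh, mul_one]
    refine (norm_sub_le _ _).trans ?_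
    have h3 := h0 ⟨γ, a, z, h⟩
    have h4 := h0 ⟨γ', a', z', h'⟩
    have := le_max_right B (2 * A)
    linarith

/-- elements of the Hölder space are continuous on the balls -/
lemma hol_cont {C : Coc n Γ} {α : ℝ} (h0 : 0 < α) {V : Type} [NormedAddCommGroup V]
    (f : Hol (wt C α) V) (γ : Γ) (a : C.I) : ContinuousOn (fam (f : Pt C → V) γ a) (C.V a) := by
  intro z hz
  have hc : ContinuousAt (fam (f : Pt C → V) γ a) z := by
    rw [ContinuousAt, tendsto_iff_norm_sub_tendsto_zero]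
    have h1 : Tendsto (fun z' => f.N1 * ‖z' - z‖ ^ α) (𝓝 z) (𝓝 0) := by
      have h2 : Continuous fun z' : Cm n => f.N1 * ‖z' - z‖ ^ α :=
        continuous_const.mul ((continuous_id.sub continuous_const).norm.rpow_const
          fun _ => Or.inr h0.le)
      have h3 := h2.tendsto z
      rwa [sub_self, norm_zero, Real.zero_rpow h0.ne', mul_zero] at h3
    refine squeeze_zero' (Eventually.of_forall fun _ => norm_nonneg _) ?_ h1
    filter_upwards [(V_open C a).mem_nhds hz] with z' hz'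
    rw [fam_of_mem _ _ _ hz, fam_of_mem _ _ _ hz', ← wt_same (γ := γ) hz' hz]
    exact f.le_N1 _ _
  exact hc.continuousWithinAt

lemma isClosed_HA (C : Coc n Γ) (α : ℝ) : IsClosed (HA C α : Set (Hol (wt C α) ℝ)) := by
  have h : (HA C α : Set (Hol (wt C α) ℝ)) =
      ⋂ (p : Pt C) (q : Pt C) (_ : Same C p q), {f | f p = f q} := by
    ext f
    simp only [mem_iInter, mem_setOf_eq]
    exact Iff.rfl
  rw [h]
  refine isClosed_iInter fun p => isClosed_iInter fun q => isClosed_iInter fun _ => ?_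
  exact isClosed_eq (Hol.continuous_eval p) (Hol.continuous_eval q)

lemma complete_HA (C : Coc n Γ) (α : ℝ) : CompleteSpace (HA C α) :=
  (isClosed_HA C α).completeSpace_coe

lemma fam_ev_eq {C : Coc n Γ} {V : Type} [Zero V] (f : Pt C → V) (γ : Γ) (a : C.I) {z : Cm n}
    (hz : z ∈ C.V a) : ∀ᶠ z' in 𝓝 z, z' ∈ C.V a := (V_open C a).mem_nhds hz

lemma isClosed_C2A (C : Coc n Γ) {α : ℝ} (h0 : 0 < α) :
    IsClosed (C2A C α : Set (Hol (wt C α) ℝ × Hol (wt C α) (Jet (Cm n)))) := by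
  refine IsSeqClosed.isClosed fun x y hx hxy => ?_
  have hd : ∀ k, ‖x k - y‖ = dist (x k) y := fun k => (dist_eq_norm _ _).symm
  have hlim : Tendsto (fun k => ‖x k - y‖) atTop (𝓝 0) := by
    simp only [hd]
    exact tendsto_iff_dist_tendsto_zero.1 hxy
  have h1 : ∀ k p, ‖(x k).1 p - y.1 p‖ ≤ ‖x k - y‖ := fun k p =>
    (((x k).1 - y.1).norm_apply_le p).trans (norm_fst_le (x k - y))
  have h2 : ∀ k p, ‖(x k).2 p - y.2 p‖ ≤ ‖x k - y‖ := fun k p =>
    (((x k).2 - y.2).norm_apply_le p).trans (norm_snd_le (x k - y))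
  have hp1 : ∀ p, Tendsto (fun k => (x k).1 p) atTop (𝓝 (y.1 p)) := fun p => by
    rw [tendsto_iff_norm_sub_tendsto_zero]
    exact squeeze_zero (fun k => norm_nonneg _) (fun k => h1 k p) hlim
  refine ⟨fun p q hpq => ?_, fun p => ?_⟩
  · refine tendsto_nhds_unique (hp1 p) ((hp1 q).congr fun k => ?_)
    exact ((hx k).1 p q hpq).symm
  · obtain ⟨γ, a, z, hz⟩ := p
    show ContDiffAt ℝ 2 (fam y.1 γ a) z ∧ y.2 ⟨γ, a, z, hz⟩ = jet (fam y.1 γ a) z
    -- jets
    have hj : ∀ k, ∀ z' (hz' : z' ∈ C.V a), jet (fam (x k).1 γ a) z' = (x k).2 ⟨γ, a, z', hz'⟩ :=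
      fun k z' hz' => ((hx k).2 ⟨γ, a, z', hz'⟩).2.symm
    have hcd : ∀ k, ∀ z' ∈ C.V a, ContDiffAt ℝ 2 (fam (x k).1 γ a) z' :=
      fun k z' hz' => ((hx k).2 ⟨γ, a, z', hz'⟩).1
    set Q : Cm n → Jet (Cm n) := fam (y.2 : Pt C → Jet (Cm n)) γ a with hQ
    have hu : TendstoUniformlyOn (fun k z' => jet (fam (x k).1 γ a) z') Q atTop (C.V a) := by
      rw [Metric.tendstoUniformlyOn_iff]
      intro ε hε
      filter_upwards [hlim.eventually (gt_mem_nhds hε)] with k hk z' hz'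
      rw [hj k z' hz', hQ, fam_of_mem _ _ _ hz', dist_comm, dist_eq_norm]
      exact (h2 k _).trans_lt hk
    have hu1 : TendstoUniformlyOn (fun k z' => fderiv ℝ (fam (x k).1 γ a) z')
        (fun z' => (Q z').2.1) atTop (C.V a) := by
      rw [Metric.tendstoUniformlyOn_iff] at hu ⊢
      intro ε hε
      filter_upwards [hu ε hε] with k hk z' hz'
      refine lt_of_le_of_lt ?_ (hk z' hz')
      rw [Prod.dist_eq, Prod.dist_eq]
      exact le_max_of_le_right (le_max_left _ _)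
    have hu2 : TendstoUniformlyOn (fun k z' => fderiv ℝ (fderiv ℝ (fam (x k).1 γ a)) z')
        (fun z' => (Q z').2.2) atTop (C.V a) := by
      rw [Metric.tendstoUniformlyOn_iff] at hu ⊢
      intro ε hε
      filter_upwards [hu ε hε] with k hk z' hz'
      refine lt_of_le_of_lt ?_ (hk z' hz')
      rw [Prod.dist_eq, Prod.dist_eq]
      exact le_max_of_le_right (le_max_right _ _)
    have hv : ∀ z' ∈ C.V a, Tendsto (fun k => fam (x k).1 γ a z') atTop (𝓝 (fam y.1 γ a z')) := by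
      intro z' hz'
      simp only [fam_of_mem _ _ _ hz']
      exact hp1 _
    have hd1 : ∀ z' ∈ C.V a, HasFDerivAt (fam y.1 γ a) (Q z').2.1 z' := fun z' hz' =>
      hasFDerivAt_of_tendstoUniformlyOn (V_open C a) hu1
        (fun k z' hz' => ((hcd k z' hz').differentiableAt (by simp)).hasFDerivAt) hv hz'
    have hd2 : ∀ z' ∈ C.V a, HasFDerivAt (fun z' => (Q z').2.1) (Q z').2.2 z' := fun z' hz' =>
      hasFDerivAt_of_tendstoUniformlyOn (V_open C a) hu2
        (fun k z' hz' => (((hcd k z' hz').fderiv_right (m := 1) (by norm_num)).differentiableAt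
          (by simp)).hasFDerivAt) (fun z' hz' => hu1.tendsto_at hz') hz'
    have hc : ContinuousOn (fun z' => (Q z').2.2) (C.V a) :=
      (continuous_snd.comp continuous_snd).comp_continuousOn (hol_cont h0 y.2 γ a)
    obtain ⟨h3, h4⟩ := contDiffAt_two_of_hasFDerivAt (V_open C a) hd1 hd2 hc hz
    refine ⟨h3, ?_⟩
    rw [h4]
    have h5 : Tendsto (fun k => (jet (fam (x k).1 γ a) z).1) atTop (𝓝 (Q z).1) :=
      (continuous_fst.tendsto _).comp (hu.tendsto_at hz)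
    have h6 : fam y.1 γ a z = (Q z).1 := tendsto_nhds_unique (hv z hz) h5
    have h7 : y.2 ⟨γ, a, z, hz⟩ = Q z := by rw [hQ, fam_of_mem _ _ _ hz]
    rw [h7]
    exact Prod.ext h6.symm rfl

lemma complete_C2A (C : Coc n Γ) {α : ℝ} (h0 : 0 < α) : CompleteSpace (C2A C α) := by
  have h3 : CompleteSpace (Hol (wt C α) ℝ × Hol (wt C α) (Jet (Cm n))) := inferInstance
  exact (isClosed_C2A C h0).completeSpace_coe

/-- **S** (730): completeness. -/
theorem sStmt : SStmt := fun _ _ _ C _ h0 => ⟨complete_HA C _, complete_C2A C h0⟩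

/-- the norm of an element of `C^{2,α}` -/
lemma norm_C2A_le {C : Coc n Γ} {α : ℝ} (u : C2A C α) {δ : ℝ} (hδ : 0 ≤ δ)
    (h0 : ∀ p : Pt C, ‖jet (fn u p.γ p.a) p.z‖ ≤ δ)
    (h1 : ∀ γ a, ∀ z ∈ C.V a, ∀ z' ∈ C.V a,
      ‖jet (fn u γ a) z - jet (fn u γ a) z'‖ ≤ δ * ‖z - z'‖ ^ α) : ‖u‖ ≤ 3 * δ := by
  have hj : ∀ p, (u.1.2 : Pt C → Jet (Cm n)) p = jet (fn u p.γ p.a) p.z := fun p => jt_apply u p
  have hf : ∀ p, (u.1.1 : Pt C → ℝ) p = (jet (fn u p.γ p.a) p.z).1 := fun p => inc_apply u p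
  have h2 : ‖u.1.2‖ ≤ δ + 2 * δ := by
    refine Hol.norm_le_of hδ (by positivity) (fun p => by rw [hj]; exact h0 p) fun p q => ?_
    have := hol_of (α := α) (fun p : Pt C => jet (fn u p.γ p.a) p.z) (A := δ) (B := δ) h0
      (fun γ a z z' h h' => h1 γ a z h z' h') p q
    rw [hj, hj]
    rwa [max_eq_right (by linarith)] at this
  have h3 : ‖u.1.1‖ ≤ δ + 2 * δ := by
    refine Hol.norm_le_of hδ (by positivity) (fun p => by
      rw [hf]; exact (norm_fst_le _).trans (h0 p)) fun p q => ?_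
    have := hol_of (α := α) (fun p : Pt C => (jet (fn u p.γ p.a) p.z).1) (A := δ) (B := δ)
      (fun p => (norm_fst_le _).trans (h0 p))
      (fun γ a z z' h h' => (norm_fst_le (jet (fn u γ a) z - jet (fn u γ a) z')).trans
        (h1 γ a z h z' h')) p q
    rw [hf, hf]
    rwa [max_eq_right (by linarith)] at this
  show ‖(u.1 : _ × _)‖ ≤ _
  rw [Prod.norm_def]
  exact max_le (by linarith) (by linarith)

lemma norm_inc_le {C : Coc n Γ} {α : ℝ} (u : C2A C α) : ‖inc C α u‖ ≤ ‖u‖ := norm_fst_le u.1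

lemma norm_jt_le {C : Coc n Γ} {α : ℝ} (u : C2A C α) : ‖jt C α u‖ ≤ ‖u‖ := norm_snd_le u.1

end Vale.Agent.P284.H730.CY
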