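import Vale.Agent.P284.H730.CY.Defs

/-!
# P284, theorem CY (helper730): the complex Monge-Ampère equation on Galois coverings of compact Kähler
manifolds. Statements of the rows. FROZEN.
-/

open scoped Manifold ContDiff Topology NNReal ComplexOrder
open Filter Set Metric MeasureTheory

set_option maxSynthPendingDepth 3

noncomputable section

namespace Vale.Agent.P284.H730.CY

open Vale.Agent.P272.K Vale.Agent.P272.K.LIN Vale.Agent.P272.K.N Vale.Agent.P284.H248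
  Vale.Agent.P284.H894 Vale.Agent.P284.H894.G Vale.Agent.P284.H894.V Vale.Agent.P284.H409.K

/-- **S** (730): completeness. -/
def SStmt : Prop :=
  ∀ (n : ℕ) (Γ : Type) [Group Γ] (C : Coc n Γ) (α : ℝ), 0 < α →
    CompleteSpace (HA C α) ∧ CompleteSpace (C2A C α)

/-- **L1** (119): the uniform local resolvent. -/
def L1Stmt : Prop :=
  ∀ (n : ℕ) (α : ℝ), 0 < α → α < 1 → ∀ (ρ c K : ℝ), 0 < ρ → 0 < c →
    ∃ r₀ : ℝ, 0 < r₀ ∧ r₀ < ρ ∧ ∃ B : ℝ, 0 ≤ B ∧ ∃ l₀ : ℝ, 1 ≤ l₀ ∧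
    ∀ (z₀ : Cm n) (a : Cm n → Bil n →L[ℝ] ℝ),
      (∀ z ∈ ball z₀ ρ, ‖a z‖ ≤ K) →
      (∀ z ∈ ball z₀ ρ, ∀ z' ∈ ball z₀ ρ, ‖a z - a z'‖ ≤ K * ‖z - z'‖ ^ α) →
      (∀ ξ : Cm n →L[ℝ] ℝ, c * ‖ξ‖ ^ 2 ≤ a z₀ (ξ.smulRight ξ)) →
      ∀ l : ℝ, l₀ ≤ l → ∀ (f : Cm n → ℝ) (A D : ℝ), 0 ≤ D → HB α f A D →
        ∃ v : Cm n → ℝ, ContDiff ℝ 2 v ∧
          (∀ z ∈ closedBall z₀ r₀, l * v z - a z (fderiv ℝ (fderiv ℝ v) z) = f z) ∧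
          ResBd α l B (l ^ (α / 2) * A + D) v

/-- Conclusion of **L2** (977, 35): `Λ - L` is onto for one `Λ > 0`. -/
def L2Concl : Prop :=
  ∀ (n : ℕ) (Γ : Type) [Group Γ] (C : Coc n Γ) (α : ℝ), 0 < α → α < 1 →
    ∀ (L : C2A C α →L[ℝ] HA C α) (a : Hol (wt C α) (Bil n →L[ℝ] ℝ)), Ell C α L a →
    ∃ Λ : ℝ, 0 < Λ ∧ ∀ f : HA C α, ∃ v : C2A C α, Λ • inc C α v - L v = f

/-- **L2** (977): over 35's L0 (`Ext a h`, finite sums over `(a, k)`). -/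
def L2Stmt : Prop := SStmt → L1Stmt → L2Concl

/-- **OY** (5): near a supremum the gradient and the Hessian are small. -/
def OYStmt : Prop :=
  ∀ (n : ℕ) (Γ : Type) [Group Γ] (C : Coc n Γ) (K : KM C) (v : Γ → C.I → Cm n → ℝ) (B : ℝ),
    (∀ γ a, ∀ z ∈ C.V a, v γ a z ≤ B) →
    (∀ γ a b z, z ∈ C.O a b → z ∈ C.V a → C.T a b z ∈ C.V b →
      v γ a z = v (γ * C.κ a b z) b (C.T a b z)) →
    (∀ γ a, ∀ z ∈ C.V a, ContDiffAt ℝ 2 (v γ a) z) → ∀ ε : ℝ, 0 < ε →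
    ∃ γ a, ∃ z ∈ ball (C.c a) (2 * C.r a),
      (∀ γ' a', ∀ z' ∈ C.V a', v γ' a' z' ≤ v γ a z + ε) ∧ ‖fderiv ℝ (v γ a) z‖ ≤ ε ∧
      (∀ x : Cm n, fderiv ℝ (fderiv ℝ (v γ a)) z x x ≤ ε * ‖x‖ ^ 2) ∧
      ((ε : ℂ) • K.w a z - cHess (v γ a) z).PosSemidef

/-- Conclusion of **L3** (913): `1 - L` is onto. -/
def LinStmt : Prop :=
  ∀ (n : ℕ) (Γ : Type) [Group Γ] (C : Coc n Γ) (_ : KM C) (α : ℝ), 0 < α → α < 1 →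
    ∀ (L : C2A C α →L[ℝ] HA C α) (a : Hol (wt C α) (Bil n →L[ℝ] ℝ)), Ell C α L a →
    ∀ f : HA C α, ∃ v : C2A C α, inc C α v - L v = f

/-- **L3** (913): descent from `Λ` to `1` (P272 `MP.descent`). -/
def L3Stmt : Prop := SStmt → OYStmt → L2Concl → LinStmt

/-- **M0** (5): the maximum principle for the Monge-Ampère equation, on the covering. -/
structure M0Concl : Prop where
  bound : ∀ (n : ℕ) (Γ : Type) [Group Γ] (C : Coc n Γ) (K : KM C) (F φ : Γ → C.I → Cm n → ℝ),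
    MAF C K F φ → Bd C K φ → ∀ A : ℝ, (∀ γ a, ∀ z ∈ C.Ω a, |F γ a z| ≤ A) →
    ∀ γ a, ∀ z ∈ C.Ω a, |φ γ a z| ≤ A
  sign : ∀ (n : ℕ) (Γ : Type) [Group Γ] (C : Coc n Γ) (K : KM C) (F φ : Γ → C.I → Cm n → ℝ),
    MAF C K F φ → Bd C K φ → ∀ A : ℝ, (∀ γ a, ∀ z ∈ C.Ω a, 0 ≤ F γ a z ∧ F γ a z ≤ A) →
    ∀ γ a, ∀ z ∈ C.Ω a, -A ≤ φ γ a z ∧ φ γ a z ≤ 0
  compare : ∀ (n : ℕ) (Γ : Type) [Group Γ] (C : Coc n Γ) (K : KM C)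
    (F F' φ φ' : Γ → C.I → Cm n → ℝ), MAF C K F φ → Bd C K φ → MAF C K F' φ' → Bd C K φ' →
    ∀ A : ℝ, (∀ γ a, ∀ z ∈ C.Ω a, |F γ a z - F' γ a z| ≤ A) →
    ∀ γ a, ∀ z ∈ C.Ω a, |φ γ a z - φ' γ a z| ≤ A

/-- **M0** (5) -/
def M0Stmt : Prop := OYStmt → M0Concl

/-- Conclusion of **M2** (639): the `C²` estimate, uniform in the solution and in `s`. -/
def M2Concl : Prop :=
  ∀ (n : ℕ) (Γ : Type) [Group Γ] (C : Coc n Γ) (K : KM C) (F : Γ → C.I → Cm n → ℝ), FB C F →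
    ∀ M₀ : ℝ, ∃ B : ℝ, 1 ≤ B ∧ ∀ s ∈ Icc (0 : ℝ) 1, ∀ φ, MAF C K (fun γ a z => s * F γ a z) φ →
      Bd C K φ → (∀ γ a, ∀ z ∈ C.Ω a, |φ γ a z| ≤ M₀) → ∀ γ a, ∀ z ∈ C.Ω a,
      ((B : ℂ) • K.w a z - (K.w a z + cHess (φ γ a) z)).PosSemidef ∧
      ((B : ℂ) • (K.w a z + cHess (φ γ a) z) - K.w a z).PosSemidef

/-- **M2** (639): P272 `C2` (pointwise inequality), OY. -/
def M2Stmt : Prop := OYStmt → M2Concl

/-- Conclusion of **E** (446 / 66): uniform interior `C^{2,β}` estimate. -/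
def EConcl : Prop :=
  ∀ (n : ℕ) (Γ : Type) [Group Γ] (C : Coc n Γ) (K : KM C) (F : Γ → C.I → Cm n → ℝ), FB C F →
    ∀ β : ℝ, 0 < β → β < 1 → ∃ M : ℝ, ∀ s ∈ Icc (0 : ℝ) 1, ∀ φ,
      MAF C K (fun γ a z => s * F γ a z) φ → Bd C K φ → ∀ γ a,
      ∀ y ∈ closedBall (C.c a) (7 / 2 * C.r a), ∀ y' ∈ closedBall (C.c a) (7 / 2 * C.r a),
      ‖fderiv ℝ (fderiv ℝ (φ γ a)) y - fderiv ℝ (fderiv ℝ (φ γ a)) y'‖ ≤ M * ‖y - y'‖ ^ β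

/-- **E**: `|F| ≤ A` on `Ω` (each point of `Ω a` lies in a `W b`), M0, M2, Calabi (`C3.calabi`),
interior estimate (`IE.ie`), see `P272/K/EST`. -/
def EStmt : Prop := M0Concl → M2Concl → EConcl

/-- **I** (636 / 66): interpolation, pure `ℂⁿ` (`P272/K/N/Interp`). -/
def IStmt : Prop :=
  ∀ (n : ℕ) (c : Cm n) (r R α β M : ℝ), 0 < r → r < R → 0 < α → α < β → β < 1 →
    ∀ δ : ℝ, 0 < δ → ∃ ε : ℝ, 0 < ε ∧ ∀ f : Cm n → ℝ,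
    (∀ z ∈ closedBall c R, ContDiffAt ℝ 2 f z) → (∀ z ∈ closedBall c R, |f z| ≤ ε) →
    (∀ z ∈ closedBall c R, ∀ z' ∈ closedBall c R,
      ‖fderiv ℝ (fderiv ℝ f) z - fderiv ℝ (fderiv ℝ f) z'‖ ≤ M * ‖z - z'‖ ^ β) →
    (∀ z ∈ ball c r, ‖jet f z‖ ≤ δ) ∧
    ∀ z ∈ ball c r, ∀ z' ∈ ball c r, ‖jet f z - jet f z'‖ ≤ δ * ‖z - z'‖ ^ α

/-- **N1** (287): the operator `G (s, u)` (`P272/K/N/MAop`: `Gop`, `ι = Unit`). -/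
def N1Stmt : Prop :=
  ∀ (n : ℕ) (Γ : Type) [Group Γ] (C : Coc n Γ) (K : KM C) (F : Γ → C.I → Cm n → ℝ), FB C F →
    ∀ α : ℝ, 0 < α → α < 1 → ∃ (G : ℝ × C2A C α → HA C α)
      (G' : ℝ × C2A C α → (ℝ × C2A C α →L[ℝ] HA C α)),
      (∀ s u, HasStrictFDerivAt G (G' (s, u)) (s, u)) ∧
      (∀ s, ∀ u ∈ PosS K α, G (s, u) = 0 ↔ Eqn K α F s u) ∧
      ∀ s, ∀ u ∈ PosS K α, G (s, u) = 0 → ∃ (L : C2A C α →L[ℝ] HA C α)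
        (a : Hol (wt C α) (Bil n →L[ℝ] ℝ)), Ell C α L a ∧
        ∀ f : HA C α, ∃ g : HA C α, ∀ v, inc C α v - L v = g → G' (s, u) (0, v) = f

/-- **R** (409): regularity, extension from the balls `V` to the balls `Ω`. -/
def RStmt : Prop :=
  ∀ (n : ℕ) (Γ : Type) [Group Γ] (C : Coc n Γ) (K : KM C) (F : Γ → C.I → Cm n → ℝ), SmF C F →
    ∀ α : ℝ, 0 < α → α < 1 → ∀ (s : ℝ), ∀ u ∈ PosS K α, Eqn K α F s u →
    ∃ φ, MAF C K (fun γ a z => s * F γ a z) φ ∧ Bd C K φ ∧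
      ∀ p : Pt C, ∀ᶠ z in 𝓝 p.z, φ p.γ p.a z = fn u p.γ p.a z

/-- **CYEx**: existence on the covering. -/
def CYEx : Prop :=
  ∀ (n : ℕ) (Γ : Type) [Group Γ] (C : Coc n Γ) (K : KM C) (F : Γ → C.I → Cm n → ℝ), FB C F →
    ∃ φ, MAF C K F φ ∧ Bd C K φ

/-- **N2** (409 / 730): the continuity method (`P272/K/N/Continuity`, `Assembly`). -/
def N2Stmt : Prop :=
  SStmt → LinStmt → M0Concl → EConcl → IStmt → N1Stmt → RStmt → CYEx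

/-- **FBS**: smooth functions with compact support are bounded with all derivatives. -/
def FBStmt : Prop :=
  ∀ (n : ℕ) (Γ : Type) [Group Γ] (C : Coc n Γ) (F : Γ → C.I → Cm n → ℝ), IsTst C F → FB C F

end Vale.Agent.P284.H730.CY
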