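import Vale.Agent.P284.H409.CY.N2
import Vale.Agent.P284.H977.CY.L2F
import Vale.Agent.P284.H287.CY.N1
import Vale.Agent.P284.H119.CY.EstS
import Vale.Agent.P284.H636.CY.Cl

/-! # P284, theorem CY (helper730): the Cheng-Yau existence theorem on Galois coverings -/

noncomputable section

namespace Vale.Agent.P284.H730.CY

/-- **CYEx** -/
theorem cyEx : CYEx :=
  H409.CY.n2 sStmt (H913.CY.linStmt sStmt (H977.CY.l2Concl sStmt)) H731.CY.m0Concl
    H639.CY.m2Concl (H119.CY.eStmt H731.CY.m0Concl H639.CY.m2Concl) H636.CY.iStmt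
    H287.CY.n1Stmt H636.CY.rStmt

end Vale.Agent.P284.H730.CY
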