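import Vale.Agent.P284.H730.CY.S
import Vale.Agent.P284.H913.K3
import Vale.Agent.P272.K.Inv.Hess
import Vale.Agent.P272.K.N.Det

/-!
# P284, theorem CY (helper730): values in a closed subspace; invariance; positive elements
-/

open scoped Manifold ContDiff Topology NNReal ComplexOrder
open Filter Set Metric MeasureTheory

set_option maxSynthPendingDepth 3
set_option linter.unusedSectionVars false

noncomputable section

namespace Vale.Agent.P284.H730.CY

open Vale.Agent.P272.K Vale.Agent.P272.K.LIN Vale.Agent.P272.K.N Vale.Agent.P284.H248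
  Vale.Agent.P284.H894 Vale.Agent.P284.H894.G Vale.Agent.P284.H894.V Vale.Agent.P284.H409.K

/-- a strictly differentiable map with values in a closed subspace -/
theorem strict_cod {E F : Type*} [NormedAddCommGroup E] [NormedSpace ℝ E] [NormedAddCommGroup F]
    [NormedSpace ℝ F] (S : Submodule ℝ F) (hS : IsClosed (S : Set F)) (g : E → F)
    (hg : ∀ x, g x ∈ S) (g' : E →L[ℝ] F) (x : E) (h : HasStrictFDerivAt g g' x) :
    ∃ hm : ∀ v, g' v ∈ S, HasStrictFDerivAt (fun y => (⟨g y, hg y⟩ : S))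
      (g'.codRestrict S hm) x := by
  have hm : ∀ v, g' v ∈ S := by
    intro v
    have h1 : HasDerivAt (fun t : ℝ => x + t • v) v 0 := by
      simpa using ((hasDerivAt_id (0:ℝ)).smul_const v).const_add x
    have h2 : HasFDerivAt g g' (x + (0:ℝ) • v) := by simpa using h.hasFDerivAt
    have h3 : HasDerivAt (fun t : ℝ => g (x + t • v)) (g' v) 0 := h2.comp_hasDerivAt (0:ℝ) h1
    have h4 := h3.tendsto_slope_zero
    refine hS.mem_of_tendsto h4 (Eventually.of_forall fun t => ?_)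
    exact S.smul_mem _ (S.sub_mem (hg _) (hg _))
  refine ⟨hm, ?_⟩
  have h1 := h.isLittleO
  refine HasStrictFDerivAt.of_isLittleO ?_
  rw [Asymptotics.isLittleO_iff] at h1 ⊢
  intro c hc
  filter_upwards [h1 hc] with p hp
  exact hp

variable {n : ℕ} {Γ : Type} [Group Γ]

lemma T_mem_Ω' {C : Coc n Γ} {a b : C.I} {z : Cm n} (hz : z ∈ C.O a b) : C.T a b z ∈ C.Ω b :=
  Vale.Agent.P284.H639.V.T_mem_Ω C hz

section comp
open Vale.Agent.P284.H730.V

/-- the complex Hessian of a composition with a holomorphic map, `C²` version -/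
theorem cHess_comp2 {T : Cm n → Cm n} {z : Cm n} {f f' : Cm n → ℝ}
    (hT : ∀ᶠ y in 𝓝 z, DifferentiableAt ℂ T y)
    (h2 : ContDiffAt ℝ 2 f' (T z)) (e : ∀ᶠ y in 𝓝 z, f y = f' (T y)) :
    cHess f z = (jmat T z).transpose * cHess f' (T z) * (jmat T z).map (starRingEnd ℂ) := by
  have hTz : DifferentiableAt ℂ T z := hT.self_of_nhds
  ext j k
  rw [C2.cHess_apply]
  have e1 : (dzb k fun y => (f y : ℂ)) =ᶠ[𝓝 z]
      fun y => ∑ q, dzb q (fun y => (f' y : ℂ)) (T y) * (starRingEnd ℂ) (jmat T y q k) := by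
    have hc : ∀ᶠ y in 𝓝 z, ContDiffAt ℝ 2 f' (T y) :=
      hTz.continuousAt.eventually (C2.eventually_contDiffAt (m := 2) h2)
    filter_upwards [e.eventually_nhds, hT, hc] with y hy hTy hcy
    have h1 : (fun y => (f y : ℂ)) =ᶠ[𝓝 y] fun y => (f' (T y) : ℂ) := by
      filter_upwards [hy] with x hx
      rw [hx]
    rw [C2.dzb_congr k h1, dzb_comp_holo (f := fun y => (f' y : ℂ))
      (C2.differentiableAt_ofReal (hcy.differentiableAt (by norm_num))) hTy]
  have hd : ∀ q, DifferentiableAt ℝ (dzb q (fun y => (f' y : ℂ))) (T z) := fun q =>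
    C2.differentiableAt_dzb q (C2.contDiffAt_ofReal h2)
  have hTr : DifferentiableAt ℝ T z := hTz.restrictScalars ℝ
  have hd' : ∀ q, DifferentiableAt ℝ (fun y => dzb q (fun y => (f' y : ℂ)) (T y)) z := fun q =>
    (hd q).comp z hTr
  have hJ : ∀ q, DifferentiableAt ℝ (fun y => jmat T y q k) z := fun q =>
    (jmat_holo hT q k).restrictScalars ℝ
  have hJ' : ∀ q, DifferentiableAt ℝ (fun y => (starRingEnd ℂ) (jmat T y q k)) z := fun q =>
    C2.differentiableAt_conj (hJ q)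
  rw [C2.dz_congr j e1, C2.dz_sum j _ (fun q _ => (hd' q).fun_mul (hJ' q))]
  have e2 : ∀ q, dz j (fun y => dzb q (fun y => (f' y : ℂ)) (T y) *
      (starRingEnd ℂ) (jmat T y q k)) z =
      (∑ p, jmat T z p j * cHess f' (T z) p q) * (starRingEnd ℂ) (jmat T z q k) := by
    intro q
    rw [C2.dz_mul j (hd' q) (hJ' q), C2.dz_conj j (hJ q),
      Vale.Agent.P272.K.dzb_of_holo (jmat_holo hT q k), map_zero, mul_zero, add_zero,
      dz_comp_holo (hd q) hTz]
    congr 1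
    exact Finset.sum_congr rfl fun p _ => mul_comm _ _
  simp only [e2]
  rw [Matrix.mul_apply]
  refine Finset.sum_congr rfl fun q _ => ?_
  rw [Matrix.mul_apply]
  rfl

end comp

lemma lev_J2 {C : Coc n Γ} {α : ℝ} (u : C2A C α) (p : Pt C) :
    lev (J2 C α u p) = cHess (fn u p.γ p.a) p.z := by
  rw [J2_apply, cHess_eq_lev]
  exact ((fn_contDiffAt u p).fderiv_right (m := 1) (by norm_num)).differentiableAt (by simp)

lemma fn_same {C : Coc n Γ} {α : ℝ} (u : C2A C α) (γ : Γ) (a b : C.I) {z : Cm n}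
    (h1 : z ∈ C.O a b) (hz : z ∈ C.V a) (hz' : C.T a b z ∈ C.V b) :
    ∀ᶠ y in 𝓝 z, fn u γ a y = fn u (γ * C.κ a b z) b (C.T a b y) := by
  have hc : ContinuousAt (C.T a b) z := (Vale.Agent.P284.H913.V.T_diff C h1).continuousAt
  filter_upwards [(V_open C a).mem_nhds hz, (C.O_open a b).mem_nhds h1, C.κ_loc a b z h1,
    hc.eventually ((V_open C b).mem_nhds hz')] with y hy hyO hk hyT
  have h2 : fn u γ a y = (u.1.1 : Pt C → ℝ) ⟨γ, a, y, hy⟩ := fam_of_mem _ _ _ hy
  have h3 : fn u (γ * C.κ a b y) b (C.T a b y) =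
      (u.1.1 : Pt C → ℝ) ⟨γ * C.κ a b y, b, C.T a b y, hyT⟩ := fam_of_mem _ _ _ hyT
  rw [← hk, h2, h3]
  exact u.2.1 ⟨γ, a, y, hy⟩ ⟨γ * C.κ a b y, b, C.T a b y, hyT⟩ ⟨hyO, rfl, rfl⟩

/-- transformation of the complex Hessian for elements of `C^{2,α}` -/
theorem lev_same {C : Coc n Γ} {α : ℝ} (u : C2A C α) {p q : Pt C} (h : Same C p q) :
    lev (J2 C α u p) = (jac C p.a q.a p.z).transpose * lev (J2 C α u q) *
      (jac C p.a q.a p.z).map (starRingEnd ℂ) := by
  rw [lev_J2, lev_J2]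
  obtain ⟨γ, a, z, hz⟩ := p
  obtain ⟨γ', b, z', hz'⟩ := q
  obtain ⟨h1, h2, h3⟩ := h
  simp only at h1 h2 h3 ⊢
  subst h2
  subst h3
  refine cHess_comp2 (T := C.T a b) ?_ (fn_contDiffAt u ⟨γ * C.κ a b z, b, C.T a b z, hz'⟩)
    (fn_same u γ a b h1 hz hz')
  filter_upwards [(C.O_open a b).mem_nhds h1] with y hy
  exact Vale.Agent.P284.H913.V.T_diff C hy

lemma jac_isUnit {C : Coc n Γ} (K : KM C) {a b : C.I} {z : Cm n} (hz : z ∈ C.O a b) :
    IsUnit (jac C a b z).det := by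
  rw [isUnit_iff_ne_zero]
  intro h0
  have h1 : 0 < vol (K.w a) z := Vale.Agent.P284.H913.K.vol_pos K
    (Vale.Agent.P284.H639.V.O_sub_Ω C hz)
  rw [vol, K.change a b z hz, Vale.Agent.P284.H913.K.det_pull, h0] at h1
  simp at h1

/-- the metric `w + ∂∂̄u` in two charts -/
theorem met_same {C : Coc n Γ} {α : ℝ} (K : KM C) (u : C2A C α) {p q : Pt C} (h : Same C p q) :
    K.w p.a p.z + lev (J2 C α u p) = (jac C p.a q.a p.z).transpose *
      (K.w q.a q.z + lev (J2 C α u q)) * (jac C p.a q.a p.z).map (starRingEnd ℂ) := by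
  rw [lev_same u h, K.change p.a q.a p.z h.mem, ← h.T, Matrix.mul_add, Matrix.add_mul]

/-- the Monge-Ampère density is a function on the covering -/
theorem det_same {C : Coc n Γ} {α : ℝ} (K : KM C) (u : C2A C α) {p q : Pt C} (h : Same C p q) :
    (1 + (K.w p.a p.z)⁻¹ * lev (J2 C α u p)).det = (1 + (K.w q.a q.z)⁻¹ * lev (J2 C α u q)).det := by
  have hp : IsUnit (K.w p.a p.z).det := isUnit_iff_ne_zero.2
    ((K.ku p.a).pos p.z (Vale.Agent.P284.H639.V.O_sub_Ω C h.mem)).det_pos.ne'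
  have hTq : q.z ∈ C.Ω q.a := by rw [h.T]; exact T_mem_Ω' h.mem
  have hq : IsUnit (K.w q.a q.z).det := isUnit_iff_ne_zero.2
    ((K.ku q.a).pos q.z hTq).det_pos.ne'
  have hJ := jac_isUnit K h.mem
  have e1 : ∀ r : Pt C, IsUnit (K.w r.a r.z).det →
      (1 + (K.w r.a r.z)⁻¹ * lev (J2 C α u r)).det = ((K.w r.a r.z).det)⁻¹ *
        (K.w r.a r.z + lev (J2 C α u r)).det := by
    intro r hr
    have h1 : 1 + (K.w r.a r.z)⁻¹ * lev (J2 C α u r) =
        (K.w r.a r.z)⁻¹ * (K.w r.a r.z + lev (J2 C α u r)) := by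
      rw [Matrix.mul_add, Matrix.nonsing_inv_mul _ hr]
    rw [h1, Matrix.det_mul, Matrix.det_nonsing_inv, Ring.inverse_eq_inv']
  rw [e1 p hp, e1 q hq, met_same K u h, K.change p.a q.a p.z h.mem, ← h.T]
  simp only [Matrix.det_mul, Matrix.det_transpose]
  have h2 : ((jac C p.a q.a p.z).map (starRingEnd ℂ)).det ≠ 0 := by
    have h3 : ((jac C p.a q.a p.z).map (starRingEnd ℂ)).det =
        (starRingEnd ℂ) (jac C p.a q.a p.z).det := (RingHom.map_det (starRingEnd ℂ) _).symm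
    rw [h3]
    exact (map_ne_zero _).2 hJ.ne_zero
  have h4 := hJ.ne_zero
  have h5 := hq.ne_zero
  field_simp

/-! ### positive elements -/

/-- the elements with `w + ∂∂̄u ≥ c w` -/
def PosC {C : Coc n Γ} (K : KM C) (α : ℝ) (c : ℝ) : Set (C2A C α) :=
  {u | ∀ p : Pt C, ((K.w p.a p.z + lev (J2 C α u p)) - (c : ℂ) • K.w p.a p.z).PosSemidef}

lemma posC_sub {C : Coc n Γ} (K : KM C) (α : ℝ) {c : ℝ} (hc : 0 < c) : PosC K α c ⊆ PosS K α :=
  fun _ h => ⟨c, hc, h⟩

end Vale.Agent.P284.H730.CY
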