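import Vale.Agent.P284.H409.K.Spec
import Vale.Agent.P272.K.LIN.Hol
import Vale.Agent.P272.K.LIN.Jet
import Vale.Agent.P272.K.N.Hess

/-!
# P284, theorem CY (helper730): the complex Monge-Ampère equation on Galois coverings of compact Kähler
manifolds. Letters. FROZEN.

The Hölder spaces live on the disjoint union `Pt C` of the balls `V a` of all the pieces `(γ, a)`.
-/

open scoped Manifold ContDiff Topology NNReal ComplexOrder
open Filter Set Metric MeasureTheory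

set_option maxSynthPendingDepth 3

noncomputable section

namespace Vale.Agent.P284.H730.CY

open Vale.Agent.P272.K Vale.Agent.P272.K.LIN Vale.Agent.P272.K.N Vale.Agent.P284.H248
  Vale.Agent.P284.H894 Vale.Agent.P284.H894.G Vale.Agent.P284.H894.V Vale.Agent.P284.H409.K

variable {n : ℕ} {Γ : Type} [Group Γ]

/-- a point `z` of the ball `V a` of the piece `(γ, a)` -/
structure Pt (C : Coc n Γ) where
  γ : Γ
  a : C.I
  z : Cm n
  mem : z ∈ C.V a

/-- `p` and `q` are the same point of the covering -/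
structure Same (C : Coc n Γ) (p q : Pt C) : Prop where
  mem : p.z ∈ C.O p.a q.a
  T : q.z = C.T p.a q.a p.z
  κ : q.γ = p.γ * C.κ p.a q.a p.z

open Classical in
/-- the weight: `|z - z'|^α` on one ball, `1` for different balls -/
def wt (C : Coc n Γ) (α : ℝ) (p q : Pt C) : ℝ≥0 :=
  if p.γ = q.γ ∧ p.a = q.a then ‖p.z - q.z‖₊ ^ α else 1

open Classical in
/-- the family of functions on the balls `V a` (zero outside) given by a function on `Pt C` -/
def fam {C : Coc n Γ} {V : Type} [Zero V] (f : Pt C → V) (γ : Γ) (a : C.I) (z : Cm n) : V :=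
  if h : z ∈ C.V a then f ⟨γ, a, z, h⟩ else 0

/-- `C^α` functions on the covering -/
def HA (C : Coc n Γ) (α : ℝ) : Submodule ℝ (Hol (wt C α) ℝ) where
  carrier := {f | ∀ p q : Pt C, Same C p q → f p = f q}
  add_mem' := fun {f g} hf hg p q h => by
    show f p + g p = f q + g q
    rw [hf p q h, hg p q h]
  zero_mem' := fun p q h => rfl
  smul_mem' := fun c f hf p q h => by
    show c • f p = c • f q
    rw [hf p q h]

lemma fam_of_mem {C : Coc n Γ} {V : Type} [Zero V] (f : Pt C → V) (γ : Γ) (a : C.I) {z : Cm n}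
    (h : z ∈ C.V a) : fam f γ a z = f ⟨γ, a, z, h⟩ := by
  simp [fam, h]

lemma V_open (C : Coc n Γ) (a : C.I) : IsOpen (C.V a) := isOpen_ball

lemma fam_ev {C : Coc n Γ} {V : Type} [Zero V] (f : Pt C → V) (p : Pt C) :
    ∀ᶠ z in 𝓝 p.z, ∃ h : z ∈ C.V p.a, fam f p.γ p.a z = f ⟨p.γ, p.a, z, h⟩ := by
  filter_upwards [(V_open C p.a).mem_nhds p.mem] with z hz
  exact ⟨hz, fam_of_mem f _ _ hz⟩

lemma fam_add {C : Coc n Γ} (f g : Pt C → ℝ) (γ : Γ) (a : C.I) :
    fam (fun p => f p + g p) γ a = fun z => fam f γ a z + fam g γ a z := by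
  funext z
  by_cases h : z ∈ C.V a
  · simp [fam, h]
  · simp [fam, h]

lemma fam_smul {C : Coc n Γ} (c : ℝ) (f : Pt C → ℝ) (γ : Γ) (a : C.I) :
    fam (fun p => c * f p) γ a = fun z => c * fam f γ a z := by
  funext z
  by_cases h : z ∈ C.V a
  · simp [fam, h]
  · simp [fam, h]

lemma fam_zero {C : Coc n Γ} (γ : Γ) (a : C.I) :
    fam (fun _ : Pt C => (0 : ℝ)) γ a = fun _ => 0 := by
  funext z
  by_cases h : z ∈ C.V a
  · simp [fam, h]
  · simp [fam, h]

lemma jet_add {E : Type*} [NormedAddCommGroup E] [NormedSpace ℝ E] {f g : E → ℝ} {y : E}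
    (hf : ContDiffAt ℝ 2 f y) (hg : ContDiffAt ℝ 2 g y) :
    jet (fun z => f z + g z) y = jet f y + jet g y := by
  have hf1 : ∀ᶠ z in 𝓝 y, DifferentiableAt ℝ f z := by
    filter_upwards [hf.eventually (by simp)] with z hz using hz.differentiableAt (by simp)
  have hg1 : ∀ᶠ z in 𝓝 y, DifferentiableAt ℝ g z := by
    filter_upwards [hg.eventually (by simp)] with z hz using hz.differentiableAt (by simp)
  have h1 : fderiv ℝ (fun z => f z + g z) =ᶠ[𝓝 y] fun z => fderiv ℝ f z + fderiv ℝ g z := by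
    filter_upwards [hf1, hg1] with z hz1 hz2
    exact fderiv_fun_add hz1 hz2
  have hf2 : DifferentiableAt ℝ (fderiv ℝ f) y :=
    (hf.fderiv_right (m := 1) (by norm_num)).differentiableAt (by simp)
  have hg2 : DifferentiableAt ℝ (fderiv ℝ g) y :=
    (hg.fderiv_right (m := 1) (by norm_num)).differentiableAt (by simp)
  unfold jet
  rw [h1.self_of_nhds, h1.fderiv_eq, fderiv_fun_add hf2 hg2]
  rfl

lemma jet_smul {E : Type*} [NormedAddCommGroup E] [NormedSpace ℝ E] {f : E → ℝ} {y : E} (c : ℝ) :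
    jet (fun z => c * f z) y = c • jet f y := by
  have h0 : (fun z => c * f z) = c • f := rfl
  have h1 : fderiv ℝ (c • f) = c • fderiv ℝ f := fderiv_const_smul_field c
  have h2 : fderiv ℝ (c • fderiv ℝ f) = c • fderiv ℝ (fderiv ℝ f) := fderiv_const_smul_field c
  unfold jet
  rw [h0, h1, h2]
  rfl

/-- `C^{2,α}` functions on the covering, with their jets in the charts -/
def C2A (C : Coc n Γ) (α : ℝ) : Submodule ℝ (Hol (wt C α) ℝ × Hol (wt C α) (Jet (Cm n))) where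
  carrier := {x | (∀ p q : Pt C, Same C p q → x.1 p = x.1 q) ∧ ∀ p : Pt C,
    ContDiffAt ℝ 2 (fam x.1 p.γ p.a) p.z ∧ x.2 p = jet (fam x.1 p.γ p.a) p.z}
  add_mem' := by
    rintro x y ⟨hx, hx'⟩ ⟨hy, hy'⟩
    refine ⟨fun p q h => ?_, fun p => ?_⟩
    · show x.1 p + y.1 p = x.1 q + y.1 q
      rw [hx p q h, hy p q h]
    · have h1 : fam ((x + y).1) p.γ p.a = fun z => fam x.1 p.γ p.a z + fam y.1 p.γ p.a z :=
        fam_add _ _ _ _
      rw [h1]
      refine ⟨(hx' p).1.add (hy' p).1, ?_⟩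
      rw [jet_add (hx' p).1 (hy' p).1, ← (hx' p).2, ← (hy' p).2]
      rfl
  zero_mem' := by
    refine ⟨fun p q h => rfl, fun p => ?_⟩
    have h1 : fam ((0 : Hol (wt C α) ℝ × Hol (wt C α) (Jet (Cm n))).1) p.γ p.a = fun _ => 0 :=
      fam_zero _ _
    rw [h1]
    refine ⟨contDiffAt_const, ?_⟩
    show (0 : Jet (Cm n)) = jet (fun _ : Cm n => (0 : ℝ)) p.z
    have h2 : fderiv ℝ (fun _ : Cm n => (0 : ℝ)) = fun _ => 0 := by
      funext z
      simp
    unfold jet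
    rw [h2]
    simp
    rfl
  smul_mem' := by
    rintro c x ⟨hx, hx'⟩
    refine ⟨fun p q h => ?_, fun p => ?_⟩
    · show c • x.1 p = c • x.1 q
      rw [hx p q h]
    · have h1 : fam ((c • x).1) p.γ p.a = fun z => c * fam x.1 p.γ p.a z := fam_smul _ _ _ _
      rw [h1]
      refine ⟨contDiffAt_const.mul (hx' p).1, ?_⟩
      rw [jet_smul, ← (hx' p).2]
      rfl

/-- the inclusion `C^{2,α} → C^α` -/
def inc (C : Coc n Γ) (α : ℝ) : C2A C α →L[ℝ] HA C α :=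
  ((ContinuousLinearMap.fst ℝ _ _).comp (C2A C α).subtypeL).codRestrict (HA C α)
    fun x => x.2.1

/-- the jet of an element of `C^{2,α}` -/
def jt (C : Coc n Γ) (α : ℝ) : C2A C α →L[ℝ] Hol (wt C α) (Jet (Cm n)) :=
  (ContinuousLinearMap.snd ℝ _ _).comp (C2A C α).subtypeL

/-- the real Hessian of an element of `C^{2,α}` -/
def J2 (C : Coc n Γ) (α : ℝ) : C2A C α →L[ℝ] Hol (wt C α) (Bil n) :=
  (Hol.map ((ContinuousLinearMap.snd ℝ (Cm n →L[ℝ] ℝ) (Bil n)).comp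
    (ContinuousLinearMap.snd ℝ ℝ ((Cm n →L[ℝ] ℝ) × Bil n)))).comp (jt C α)

/-- the function on the pieces of an element of `C^{2,α}` -/
def fn {C : Coc n Γ} {α : ℝ} (u : C2A C α) : Γ → C.I → Cm n → ℝ := fam (u.1.1 : Pt C → ℝ)

lemma inc_apply {C : Coc n Γ} {α : ℝ} (u : C2A C α) (p : Pt C) :
    (inc C α u : Hol (wt C α) ℝ) p = fn u p.γ p.a p.z := (fam_of_mem _ _ _ p.mem).symm

lemma fn_contDiffAt {C : Coc n Γ} {α : ℝ} (u : C2A C α) (p : Pt C) :
    ContDiffAt ℝ 2 (fn u p.γ p.a) p.z := (u.2.2 p).1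

lemma jt_apply {C : Coc n Γ} {α : ℝ} (u : C2A C α) (p : Pt C) :
    jt C α u p = jet (fn u p.γ p.a) p.z := (u.2.2 p).2

lemma J2_apply {C : Coc n Γ} {α : ℝ} (u : C2A C α) (p : Pt C) :
    J2 C α u p = fderiv ℝ (fderiv ℝ (fn u p.γ p.a)) p.z :=
  congrArg (fun q : Jet (Cm n) => q.2.2) (jt_apply u p)

/-- `L` is a uniformly elliptic operator `v ↦ a (D²v)` with coefficient `a` in `C^α`. -/
structure Ell (C : Coc n Γ) (α : ℝ) (L : C2A C α →L[ℝ] HA C α)
    (a : Hol (wt C α) (Bil n →L[ℝ] ℝ)) : Prop where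
  pos : ∃ c : ℝ, 0 < c ∧ ∀ (p : Pt C) (ξ : Cm n →L[ℝ] ℝ), c * ‖ξ‖ ^ 2 ≤ a p (ξ.smulRight ξ)
  eq : ∀ (v : C2A C α) (p : Pt C), (L v : Hol (wt C α) ℝ) p = a p (J2 C α v p)

/-- functions smooth on the covering, bounded with all derivatives -/
structure FB (C : Coc n Γ) (F : Γ → C.I → Cm n → ℝ) : Prop extends SmF C F where
  bd : ∀ (a : C.I) (ρ : ℝ), ρ < 4 * C.r a → ∀ k : ℕ, ∃ B : ℝ, ∀ γ, ∀ z ∈ closedBall (C.c a) ρ,
    ‖iteratedFDeriv ℝ k (F γ a) z‖ ≤ B

/-- `φ` is bounded and `w + ∂∂̄φ` is uniformly equivalent to `w` -/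
structure Bd (C : Coc n Γ) (K : KM C) (φ : Γ → C.I → Cm n → ℝ) : Prop where
  b0 : ∃ B : ℝ, ∀ γ a, ∀ z ∈ C.Ω a, |φ γ a z| ≤ B
  b2 : ∃ B : ℝ, ∀ γ a, ∀ z ∈ C.Ω a,
    ((B : ℂ) • K.w a z - (K.w a z + cHess (φ γ a) z)).PosSemidef
  low : ∃ c : ℝ, 0 < c ∧ ∀ γ a, ∀ z ∈ C.Ω a,
    ((K.w a z + cHess (φ γ a) z) - (c : ℂ) • K.w a z).PosSemidef

/-- the uniformly positive elements of `C^{2,α}` -/
def PosS {C : Coc n Γ} (K : KM C) (α : ℝ) : Set (C2A C α) :=
  {u | ∃ c : ℝ, 0 < c ∧ ∀ p : Pt C,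
    ((K.w p.a p.z + lev (J2 C α u p)) - (c : ℂ) • K.w p.a p.z).PosSemidef}

/-- the equation of the continuity method at the parameter `s` -/
def Eqn {C : Coc n Γ} (K : KM C) (α : ℝ) (F : Γ → C.I → Cm n → ℝ) (s : ℝ) (u : C2A C α) : Prop :=
  ∀ p : Pt C, Real.log (K.w p.a p.z + lev (J2 C α u p)).det.re - Real.log (K.w p.a p.z).det.re =
    fn u p.γ p.a p.z + s * F p.γ p.a p.z

end Vale.Agent.P284.H730.CY
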